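import Vale.Agent.P329.Mark.Low

namespace Vale.Agent.Results.P329.LongMarkers

open Vale.Agent.P329

/-- (1) For every regular language `L` there is `Λ` such that for every word `s` of length at
least `Λ` and every `m` the words of `L` in which every factor of length `m` contains `s` form a
language of generalized star height at most one.
(2) For every regular language `L` and every `N` there is `C` such that the same holds for
every finite set `X` of words without `N`-th powers, each of length at least
`C * (|X| + 1) ^ 14`: the words of `L` in which every factor of length `m` contains a word of `X`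
form a language of generalized star height at most one.
(3) Let `F` be a factorial and right-extendable set of words which contains no `N`-th power of a
nonempty word and whose complexity `p` satisfies `p n ^ 15 ≤ C * n ^ 16` for infinitely many `n`.
Then every regular language `L` has generalized star height at most one on a star-free set
containing `F`. -/
theorem result :
    (∀ (α : Type) [Finite α] (L : Language α), L.IsRegular →
      ∃ Λ : ℕ, ∀ s : List α, Λ ≤ s.length → ∀ m : ℕ,
        ∃ e : GRE α, e.height ≤ 1 ∧ e.lang =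
          {w : List α | w ∈ L ∧ ∀ u : List α, u <:+: w → u.length = m → s <:+: u}) ∧
    (∀ (α : Type) [Finite α] (L : Language α), L.IsRegular → ∀ N : ℕ,
      ∃ C : ℕ, ∀ X : Finset (List α),
        (∀ s ∈ X, C * (X.card + 1) ^ 14 ≤ s.length ∧
          ∀ z : List α, z ≠ [] → ¬ (List.replicate N z).flatten <:+: s) → ∀ m : ℕ,
          ∃ e : GRE α, e.height ≤ 1 ∧ e.lang =
            {w : List α | w ∈ L ∧ ∀ u : List α, u <:+: w → u.length = m → ∃ s ∈ X, s <:+: u}) ∧
    (∀ (α : Type) [Finite α] (L : Language α), L.IsRegular → ∀ F : Set (List α),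
      (∀ w ∈ F, ∀ u : List α, u <:+: w → u ∈ F) → (∀ w ∈ F, ∃ a : α, w ++ [a] ∈ F) →
      ∀ N : ℕ, (∀ z : List α, z ≠ [] → (List.replicate N z).flatten ∉ F) →
      ∀ C : ℕ, (∀ n₀ : ℕ, ∃ n : ℕ, n₀ ≤ n ∧ {u : List α | u ∈ F ∧ u.length = n}.ncard ^ 15 ≤
        C * n ^ 16) →
        ∃ e₀ e₁ : GRE α, e₀.height = 0 ∧ F ⊆ e₀.lang ∧ e₁.height ≤ 1 ∧
          e₁.lang = {w : List α | w ∈ L ∧ w ∈ e₀.lang}) := by
  refine ⟨fun α _ L hL => Mark.regular_one L hL, ?_, ?_⟩
  · intro α _ L hL N
    obtain ⟨C, hC⟩ := Mark.regular_free L hL N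
    refine ⟨C, fun X hX m => ?_⟩
    have h1 := hC X.card X (fun q => q.1) (by simp) (fun q => hX q.1 q.2) m
    obtain ⟨e, he, he2⟩ := h1
    refine ⟨e, he, ?_⟩
    rw [he2]
    ext w
    constructor
    · rintro ⟨hw, h2⟩
      refine ⟨hw, fun u hu hm => ?_⟩
      obtain ⟨q, hq⟩ := h2 u hu hm
      exact ⟨q.1, q.2, hq⟩
    · rintro ⟨hw, h2⟩
      refine ⟨hw, fun u hu hm => ?_⟩
      obtain ⟨s, hs, hsu⟩ := h2 u hu hm
      exact ⟨⟨s, hs⟩, hsu⟩
  · intro α _ L hL F hfac hext N hN C hC
    obtain ⟨Z, hFZ, ⟨e₀, h0, h0'⟩, ⟨e₁, h1, h1'⟩⟩ := Mark.regular_low L hL F hfac hext N hN C hC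
    subst h0'
    exact ⟨e₀, e₁, by omega, hFZ, h1, h1'⟩

end Vale.Agent.Results.P329.LongMarkers
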