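import Vale.Agent.P329.ClassDefs
import Vale.Agent.P329.Bdl.B1
import Vale.Agent.P329.Bdl.B2
import Vale.Agent.P329.S4.Class
import Vale.Agent.P329.S4.Main
import Vale.Agent.P329.S4.Four

namespace Vale.Agent.Results.P329.SymmetricFour

open Vale.Agent.P329

/-- (1) Every language recognised by a divisor of a finite direct product of finite groups, each
of which has a homomorphism to the symmetric group on three points whose kernel has exponent at
most two, or is abelian-by-(elementary abelian `p`), or is nilpotent of class at most three, has
generalized star height at most one.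
(2) In particular this holds for every language recognised by the symmetric group on four
points. -/
theorem result :
    (∀ (α : Type) [Finite α] (ι : Type) [Finite ι] (H : ι → Type)
      [∀ i, Group (H i)] [∀ i, Finite (H i)],
      (∀ i, ElementaryTwoByS3 (H i) ∨ AbelianByElementary (H i) ∨
        Subgroup.lowerCentralSeries (⊤ : Subgroup (H i)) 3 = ⊥) →
      ∀ (D : Subgroup (∀ i, H i)) (G : Type) [Group G] (π : D →* G),
        Function.Surjective π → ∀ (f : α → G) (S : Set G),
          ∃ e : GRE α, e.height ≤ 1 ∧ e.lang = {w : List α | (w.map f).prod ∈ S}) ∧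
    (∀ (α : Type) [Finite α] (f : α → Equiv.Perm (Fin 4)) (S : Set (Equiv.Perm (Fin 4))),
      ∃ e : GRE α, e.height ≤ 1 ∧ e.lang = {w : List α | (w.map f).prod ∈ S}) := by
  constructor
  · intro α _ ι _ H _ _ hH D G _ π hπ f S
    classical
    choose F hF using fun a => hπ (f a)
    have h1 : ∀ i, Kn fun w : List α => (w.map fun a => (F a : ∀ i, H i) i).prod := by
      intro i
      rcases hH i with h2 | ⟨p, hp, A, h2, h3, h4⟩ | h2
      · exact S4.e2s3_known h2 _
      · exact group_known hp A h2 h3 h4 _
      · exact nil3_known' h2 _
    have h2 := Kn.pi h1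
    have h3 : ∀ w : List α, (fun i => (w.map fun a => (F a : ∀ i, H i) i).prod) =
        (((w.map F).prod : D) : ∀ i, H i) := by
      intro w
      funext i
      induction w with
      | nil => rfl
      | cons a w ih =>
        rw [List.map_cons, List.prod_cons, ih, List.map_cons, List.prod_cons, Subgroup.coe_mul,
          Pi.mul_apply]
    have h4 : ∀ w : List α, π (w.map F).prod = (w.map f).prod := by
      intro w
      rw [map_list_prod, List.map_map]
      congr 1
      exact List.map_congr_left fun a _ => hF a
    have h5 : {w : List α | (w.map f).prod ∈ S} =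
        ⋃ x : (∀ i, H i), ⋃ _ : ∃ d : D, (d : ∀ i, H i) = x ∧ π d ∈ S,
          {w : List α | (fun i => (w.map fun a => (F a : ∀ i, H i) i).prod) = x} := by
      ext w
      simp only [Set.mem_iUnion]
      constructor
      · intro hw
        refine ⟨(((w.map F).prod : D) : ∀ i, H i), ⟨(w.map F).prod, rfl, ?_⟩, h3 w⟩
        rw [h4]; exact hw
      · rintro ⟨x, ⟨d, rfl, hd⟩, hw⟩
        have hw' := hw
        rw [Set.mem_ofPred_eq, h3 w] at hw'
        have h6 : (w.map F).prod = d := Subtype.ext hw'
        rw [← h6, h4] at hd
        exact hd
    rw [h5]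
    exact SH.iUnion fun x => SH.iUnion_prop fun _ => h2 x
  · intro α _ f S
    have h1 := (S4.e2s3_known S4.four f).comp fun g => g ∈ S
    refine Eq.mp (congrArg (SH 1) ?_) (h1 True)
    ext w
    exact ⟨fun h => of_eq_true h, fun h => eq_true h⟩

end Vale.Agent.Results.P329.SymmetricFour
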