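import Vale.Agent.Results.P329.SlowGroups
import Vale.Agent.Results.P329.SymmetricFour
import Vale.Agent.Results.P329.LongMarkers

/-!
Languages of generalized star height at most one: all regular languages inside star-free sets
given by powers of short words, by long markers, or containing a language of low complexity; and
the languages of a class of finite groups which contains the symmetric group on four points.
-/

namespace Vale.Agent.Results.P329.GroupsMarkers

open Vale.Agent.P329

/-- (1) For every regular language `L` and every `P` there is `N₀` such that for all `N ≥ N₀` and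
all `m` the words of `L` in which every factor of length `m` contains the `N`-th power of a
nonempty word of length at most `P` form a language of generalized star height at most one.
(2) For every regular language `L` there is `Λ` such that for every word `s` of length at
least `Λ` and every `m` the words of `L` in which every factor of length `m` contains `s` form a
language of generalized star height at most one.
(3) For every regular language `L` and every `N` there is `C` such that the same holds for
every finite set `X` of words without `N`-th powers, each of length at least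
`C * (|X| + 1) ^ 14`.
(4) Let `F` be a factorial and right-extendable set of words which contains no `N`-th power of a
nonempty word and whose complexity `p` satisfies `p n ^ 15 ≤ C * n ^ 16` for infinitely many `n`.
Then every regular language `L` has generalized star height at most one on a star-free set
containing `F`.
(5) Every language recognised by a divisor of a finite direct product of finite groups, each
of which has a homomorphism to the symmetric group on three points whose kernel has exponent at
most two, or is abelian-by-(elementary abelian `p`), or is nilpotent of class at most three, has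
generalized star height at most one.
(6) In particular this holds for every language recognised by the symmetric group on four
points. -/
theorem result :
    (∀ (α : Type) [Finite α] (L : Language α), L.IsRegular → ∀ P : ℕ,
      ∃ N₀ : ℕ, ∀ N : ℕ, N₀ ≤ N → ∀ m : ℕ,
        ∃ e : GRE α, e.height ≤ 1 ∧ e.lang = {w : List α | w ∈ L ∧ Slow P N m w}) ∧
    (∀ (α : Type) [Finite α] (L : Language α), L.IsRegular →
      ∃ Λ : ℕ, ∀ s : List α, Λ ≤ s.length → ∀ m : ℕ,
        ∃ e : GRE α, e.height ≤ 1 ∧ e.lang =
          {w : List α | w ∈ L ∧ ∀ u : List α, u <:+: w → u.length = m → s <:+: u}) ∧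
    (∀ (α : Type) [Finite α] (L : Language α), L.IsRegular → ∀ N : ℕ,
      ∃ C : ℕ, ∀ X : Finset (List α),
        (∀ s ∈ X, C * (X.card + 1) ^ 14 ≤ s.length ∧
          ∀ z : List α, z ≠ [] → ¬ (List.replicate N z).flatten <:+: s) → ∀ m : ℕ,
          ∃ e : GRE α, e.height ≤ 1 ∧ e.lang =
            {w : List α | w ∈ L ∧ ∀ u : List α, u <:+: w → u.length = m → ∃ s ∈ X, s <:+: u}) ∧
    (∀ (α : Type) [Finite α] (L : Language α), L.IsRegular → ∀ F : Set (List α),
      (∀ w ∈ F, ∀ u : List α, u <:+: w → u ∈ F) → (∀ w ∈ F, ∃ a : α, w ++ [a] ∈ F) →
      ∀ N : ℕ, (∀ z : List α, z ≠ [] → (List.replicate N z).flatten ∉ F) →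
      ∀ C : ℕ, (∀ n₀ : ℕ, ∃ n : ℕ, n₀ ≤ n ∧ {u : List α | u ∈ F ∧ u.length = n}.ncard ^ 15 ≤
        C * n ^ 16) →
        ∃ e₀ e₁ : GRE α, e₀.height = 0 ∧ F ⊆ e₀.lang ∧ e₁.height ≤ 1 ∧
          e₁.lang = {w : List α | w ∈ L ∧ w ∈ e₀.lang}) ∧
    (∀ (α : Type) [Finite α] (ι : Type) [Finite ι] (H : ι → Type)
      [∀ i, Group (H i)] [∀ i, Finite (H i)],
      (∀ i, ElementaryTwoByS3 (H i) ∨ AbelianByElementary (H i) ∨
        Subgroup.lowerCentralSeries (⊤ : Subgroup (H i)) 3 = ⊥) →
      ∀ (D : Subgroup (∀ i, H i)) (G : Type) [Group G] (π : D →* G),
        Function.Surjective π → ∀ (f : α → G) (S : Set G),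
          ∃ e : GRE α, e.height ≤ 1 ∧ e.lang = {w : List α | (w.map f).prod ∈ S}) ∧
    (∀ (α : Type) [Finite α] (f : α → Equiv.Perm (Fin 4)) (S : Set (Equiv.Perm (Fin 4))),
      ∃ e : GRE α, e.height ≤ 1 ∧ e.lang = {w : List α | (w.map f).prod ∈ S}) :=
  ⟨SlowGroups.result.1, LongMarkers.result.1, LongMarkers.result.2.1, LongMarkers.result.2.2,
    SymmetricFour.result.1, SymmetricFour.result.2⟩

end Vale.Agent.Results.P329.GroupsMarkers
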